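import Vale.Agent.P352.H722.Loc

namespace Vale.Agent.Results.P352.LocalTruncated

open Vale.Agent.P352.GF

theorem result {D : Type*} [NormedAddCommGroup D] [InnerProductSpace ℂ D] (Q : Theory D)
    (T : Ix → Ix → Fld D) (hT : Q.IsStress T) :
    ((∀ A d, 1 < d → Q.IsScalar A d → Q.Tame A → ∀ f v, IsTest f → A f v = 0) ∧
      (Q.Tame (tr T) → ∀ f v, IsTest f → tr T f v = 0) ∧
      (∀ L, Q.IsScalar L 2 → Q.Tame (tr (improve T L)) →
        ∀ f v, IsTest f → tr (improve T L) f v = 0)) ∧
    (∀ A d, 1 < d → Q.IsScalar A d → Q.TameOn A → ∀ f v, IsTest f → A f v = 0) ∧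
    (Q.TameOn (tr T) → ∀ f v, IsTest f → tr T f v = 0) ∧
    (∀ L, Q.IsScalar L 2 → Q.TameOn (tr (improve T L)) →
      ∀ f v, IsTest f → tr (improve T L) f v = 0) :=
  ⟨⟨fun _ _ hd hA h _ v hf =>
      have P := Vale.Agent.P352.PField.of_isScalar hT hA
      P.zero hT hd (Vale.Agent.P352.H990.free4_of_tame P (by linarith) h) hf v,
    fun h _ v hf =>
      have P := Vale.Agent.P352.PField.tr hT
      P.zero hT (by norm_num) (Vale.Agent.P352.H990.free4_of_tame P (by norm_num) h) hf v,
    fun _ hL h _ v hf =>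
      have P := Vale.Agent.P352.PField.trImp hT hL
      P.zero hT (by norm_num) (Vale.Agent.P352.H990.free4_of_tame P (by norm_num) h) hf v⟩,
    fun _ _ hd hA h _ v hf =>
      have P := Vale.Agent.P352.PField.of_isScalar hT hA
      P.zero hT hd (Vale.Agent.P352.H722.free4_of_tameOn P (by linarith) h) hf v,
    fun h _ v hf =>
      have P := Vale.Agent.P352.PField.tr hT
      P.zero hT (by norm_num) (Vale.Agent.P352.H722.free4_of_tameOn P (by norm_num) h) hf v,
    fun _ hL h _ v hf =>
      have P := Vale.Agent.P352.PField.trImp hT hL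
      P.zero hT (by norm_num) (Vale.Agent.P352.H722.free4_of_tameOn P (by norm_num) h) hf v⟩

end Vale.Agent.Results.P352.LocalTruncated
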